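import Vale.Agent.N331X.Greedy

/-!
# P331: the discarded elements contain a heavy independent set, and their weights are almost
additive after thinning
-/

namespace Vale.Agent.N331X

open Finset
open scoped Classical

variable {E : Type} [Fintype E] {K : Matroid E} {f : Finset E → ℝ} {X A U : Finset E} {g e : E}

/-- the slack between an independent set and the kept elements which it spans -/
noncomputable def slack (K : Matroid E) (A J : Finset E) : ℝ :=
  (J.card : ℝ) - (A.filter fun a => a ∈ K.closure (J : Set E)).card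

omit [Fintype E] in
theorem slack_nonneg {J : Finset E} (hA : K.Indep (A : Set E)) (hJ : K.Indep (J : Set E)) :
    0 ≤ slack K A J := by
  have h1 : K.Indep ((A.filter fun a => a ∈ K.closure (J : Set E) : Finset E) : Set E) :=
    hA.subset (coe_subset.2 (filter_subset _ _))
  have h2 := h1.encard_le_eRk_of_subset (X := K.closure (J : Set E))
    fun x hx => (mem_filter.1 (mem_coe.1 hx)).2
  rw [K.eRk_closure_eq, hJ.eRk_eq_encard, Set.encard_coe_eq_coe_finsetCard,
    Set.encard_coe_eq_coe_finsetCard, Nat.cast_le] at h2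
  exact sub_nonneg.2 (Nat.cast_le.2 h2)

theorem Best.next_in (hf : Sub f) (h : Best K f A U g) (e : E)
    (he : Cand K f (insert g A) (U.erase g) e) : mg f (insert g A) e ≤ mg f A g :=
  (hf.mg_le (subset_insert g A) fun h' =>
    (mem_insert.1 h').resolve_left (ne_of_mem_erase he.1)).trans
    (h.mg_le (mem_of_mem_erase he.1)
      (he.2.1.subset (coe_subset.2 (insert_subset_insert _ (subset_insert g A)))))

theorem heavy (hf : Sub f) (hK : K.E = Set.univ) (A U J : Finset E) (μ : ℝ)
    (hA : K.Indep (A : Set E)) (hJ : K.Indep (J : Set E)) (h0 : 0 ≤ μ)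
    (hμ : ∀ e, Cand K f A U e → mg f A e ≤ μ) :
    ∃ I : Finset E → Finset E,
      (∀ X, I X ⊆ Nf K f X A U ∧ K.Indep ((J ∪ I X : Finset E) : Set E)) ∧
      1 / 4 * Ex (1 / 2) U (fun X => tot K f X A U) ≤
        Ex (1 / 2) U (fun X => ∑ e ∈ I X, wt K f X A U e) + 1 / 2 * (μ * slack K A J) := by
  induction A, U using ind K f generalizing J μ with
  | h0 A U h =>
    refine ⟨fun _ => ∅, fun X => ⟨empty_subset _, by rwa [union_empty]⟩, ?_⟩
    have h1 := mul_nonneg h0 (slack_nonneg hA hJ)
    simp only [tot_none h, sum_empty, Ex_const]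
    linarith
  | h1 A U g h i1 i2 =>
    have hm := h.1.2.2.le
    have hd := slack_nonneg hA hJ
    have hle := mul_le_mul_of_nonneg_right (hμ g h.1) hd
    obtain ⟨I₁, a1, b1⟩ := i1 J _ h.1.2.1 hJ hm (h.next_in hf)
    have hn : ∀ e, Cand K f A (U.erase g) e → mg f A e ≤ mg f A g := fun e he =>
      h.le ⟨mem_of_mem_erase he.1, he.2⟩
    have e0 := Ex_best h (F := fun X => tot K f X A U)
      (F₁ := fun X => tot K f X (insert g A) (U.erase g) + mg f A g)
      (F₂ := fun X => tot K f X A (U.erase g) + mg f A g)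
      (fun X hX => tot_in h hX) fun X hX => tot_not h hX
    rw [Ex_add, Ex_add, Ex_const] at e0
    have n1 : ∀ X, g ∉ I₁ X := fun X h => notMem_Nf ((a1 X).1 h)
    by_cases hg : g ∈ K.closure (J : Set E)
    · obtain ⟨I₂, a2, b2⟩ := i2 J _ hA hJ hm hn
      have n2 : ∀ X, g ∉ I₂ X := fun X h => notMem_Nf ((a2 X).1 h)
      refine ⟨fun X => if g ∈ X then I₁ (X.erase g) else I₂ X, fun X => ?_, ?_⟩
      · dsimp only
        by_cases hX : g ∈ X
        · rw [if_pos hX, Nf_in h hX]
          exact a1 _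
        · rw [if_neg hX, Nf_not h hX]
          exact ⟨(a2 X).1.trans (subset_insert _ _), (a2 X).2⟩
      · have e1 : slack K (insert g A) J = slack K A J - 1 := by
          rw [slack, slack, filter_insert, if_pos hg,
            card_insert_of_notMem fun h' => h.1.notMem (mem_filter.1 h').1]
          push_cast
          ring
        rw [e0, Ex_best h (F₁ := fun X => ∑ e ∈ I₁ X, wt K f X (insert g A) (U.erase g) e)
          (F₂ := fun X => ∑ e ∈ I₂ X, wt K f X A (U.erase g) e)
          (fun X hX => by simp only [if_pos hX, sum_in h hX (n1 _)])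
          fun X hX => by simp only [if_neg hX, sum_not h hX (n2 _)]]
        rw [e1] at b1
        linarith
    · have hgJ : g ∉ J := fun h' => hg (K.subset_closure _ (hK ▸ Set.subset_univ _) h')
      have hJ' : K.Indep ((insert g J : Finset E) : Set E) := by
        rw [coe_insert]
        exact (hJ.insert_indep_iff_of_notMem hgJ).2 ⟨hK ▸ Set.mem_univ _, hg⟩
      obtain ⟨I₂, a2, b2⟩ := i2 (insert g J) _ hA hJ' hm hn
      have n2 : ∀ X, g ∉ I₂ X := fun X h => notMem_Nf ((a2 X).1 h)
      refine ⟨fun X => if g ∈ X then I₁ (X.erase g) else insert g (I₂ X), fun X => ?_, ?_⟩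
      · dsimp only
        by_cases hX : g ∈ X
        · rw [if_pos hX, Nf_in h hX]
          exact a1 _
        · rw [if_neg hX, Nf_not h hX, union_insert, ← insert_union]
          exact ⟨insert_subset_insert _ (a2 X).1, (a2 X).2⟩
      · have e1 : slack K (insert g A) J = slack K A J := by
          rw [slack, slack, filter_insert, if_neg hg]
        have e2 : slack K A (insert g J) ≤ slack K A J + 1 := by
          have h3 : ((A.filter fun a => a ∈ K.closure (J : Set E)).card : ℝ) ≤
              (A.filter fun a => a ∈ K.closure ((insert g J : Finset E) : Set E)).card :=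
            Nat.cast_le.2 (card_le_card fun x hx => mem_filter.2 ⟨(mem_filter.1 hx).1,
              K.closure_subset_closure (coe_subset.2 (subset_insert g J)) (mem_filter.1 hx).2⟩)
          rw [slack, slack, card_insert_of_notMem hgJ, Nat.cast_add, Nat.cast_one]
          linarith
        have e3 := mul_le_mul_of_nonneg_left e2 hm
        rw [e0, Ex_best h (F₁ := fun X => ∑ e ∈ I₁ X, wt K f X (insert g A) (U.erase g) e)
          (F₂ := fun X => ∑ e ∈ I₂ X, wt K f X A (U.erase g) e + mg f A g)
          (fun X hX => by simp only [if_pos hX, sum_in h hX (n1 _)])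
          fun X hX => by
            dsimp only
            rw [if_neg hX, sum_insert (n2 _), sum_not h hX (n2 _), wt_self h, add_comm],
          Ex_add, Ex_const]
        rw [e1] at b1
        linarith

/-- the potential for the loss -/
noncomputable def Phi (K : Matroid E) (f : Finset E → ℝ) (A U H X Y : Finset E) : ℝ :=
  f (Mf K f X A U) - f (H ∪ Mf K f X A U ∪ Nf K f X A U ∩ Y) + (f H - f A) +
    ∑ e ∈ Nf K f X A U ∩ Y, wt K f X A U e

theorem E2_best {t : ℝ} (h : Best K f A U g) {F F₁ F₂ F₃ : Finset E → Finset E → ℝ}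
    (h1 : ∀ X Y, g ∈ X → F X Y = F₁ (X.erase g) (Y.erase g))
    (h2 : ∀ X Y, g ∉ X → g ∈ Y → F X Y = F₂ X (Y.erase g))
    (h3 : ∀ X Y, g ∉ X → g ∉ Y → F X Y = F₃ X Y) :
    E2 t U F = 1 / 2 * E2 t (U.erase g) F₁ +
      1 / 2 * (t * E2 t (U.erase g) F₂ + (1 - t) * E2 t (U.erase g) F₃) := by
  rw [E2_step h.1.1, E2_congr (F := fun X Y => F (insert g X) (insert g Y)) (G := F₁)
      fun X hX Y hY => by
        rw [h1 _ _ (mem_insert_self g X), erase_insert (not_mem_of_sub hX),
          erase_insert (not_mem_of_sub hY)],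
    E2_congr (F := fun X Y => F (insert g X) Y) (G := F₁) fun X hX Y hY => by
      rw [h1 _ _ (mem_insert_self g X), erase_insert (not_mem_of_sub hX),
        erase_eq_of_notMem (not_mem_of_sub hY)],
    E2_congr (F := fun X Y => F X (insert g Y)) (G := F₂) fun X hX Y hY => by
      rw [h2 _ _ (not_mem_of_sub hX) (mem_insert_self g Y), erase_insert (not_mem_of_sub hY)],
    E2_congr (F := F) (G := F₃) fun X hX Y hY =>
      h3 _ _ (not_mem_of_sub hX) (not_mem_of_sub hY)]
  ring

omit [Fintype E] in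
theorem inter_erase_eq {S Y : Finset E} (h : g ∉ S) : S ∩ Y.erase g = S ∩ Y := by
  rw [inter_erase, erase_eq_of_notMem fun h' => h (mem_inter.1 h').1]

theorem loss (hf : Sub f) {t : ℝ} (t0 : 0 ≤ t) (t1 : t ≤ 1) (A U H : Finset E) (hA : A ⊆ H)
    (hH : Disjoint H U) :
    ∃ L : Finset E → Finset E → ℝ,
      (∀ X Y Q R, Q ⊆ Nf K f X A U ∩ Y → R ⊆ H →
        ∑ e ∈ Q, wt K f X A U e - L X Y ≤ f (R ∪ Q) - f R) ∧
      E2 t U L ≤ t * E2 t U (Phi K f A U H) := by
  induction A, U using ind K f generalizing H with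
  | h0 A U h =>
    refine ⟨fun _ _ => 0, fun X Y Q R hQ _ => ?_, ?_⟩
    · rw [Nf_none h, empty_inter, subset_empty] at hQ
      simp [hQ]
    · have h1 : Phi K f A U H = fun _ _ => 0 := by
        funext X Y
        simp [Phi, Mf_none h, Nf_none h, union_eq_left.2 hA]
      simp [h1, E2, Ex_const]
  | h1 A U g h i1 i2 =>
    have hgH : g ∉ H := disjoint_right.1 hH h.1.1
    have hH' : Disjoint (insert g H) (U.erase g) :=
      disjoint_insert_left.2 ⟨notMem_erase g U, hH.mono_right (erase_subset _ _)⟩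
    obtain ⟨L₁, a1, b1⟩ := i1 (insert g H) (insert_subset_insert g hA) hH'
    obtain ⟨L₂, a2, b2⟩ := i2 (insert g H) (hA.trans (subset_insert g H)) hH'
    obtain ⟨L₃, a3, b3⟩ := i2 H hA (hH.mono_right (erase_subset _ _))
    have hl : 0 ≤ mg f A g - mg f H g := sub_nonneg.2 (hf.mg_le hA fun h => absurd h hgH)
    set l := mg f A g - mg f H g with hl'
    refine ⟨fun X Y => if g ∈ X then L₁ (X.erase g) (Y.erase g) else
      if g ∈ Y then L₂ X (Y.erase g) + l else L₃ X Y, fun X Y Q R hQ hR => ?_, ?_⟩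
    · dsimp only
      by_cases hX : g ∈ X
      · rw [Nf_in h hX, ← inter_erase_eq (g := g) notMem_Nf] at hQ
        rw [if_pos hX, sum_in h hX fun h' => notMem_Nf (mem_inter.1 (hQ h')).1]
        exact a1 _ _ Q R hQ (hR.trans (subset_insert g H))
      rw [Nf_not h hX] at hQ
      rw [if_neg hX]
      by_cases hY : g ∈ Y
      · rw [if_pos hY]
        rw [insert_inter_of_mem hY, ← inter_erase_eq (g := g) notMem_Nf] at hQ
        by_cases hg : g ∈ Q
        · have h1 := a2 X _ (Q.erase g) (insert g R) (subset_insert_iff.1 hQ)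
            (insert_subset_insert g hR)
          have h2 : mg f H g ≤ mg f R g := hf.mg_le hR fun h => absurd h hgH
          rw [insert_union, ← union_insert, insert_erase hg] at h1
          rw [← sum_erase_add _ _ hg, sum_not h hX (notMem_erase g Q), wt_self h]
          rw [mg.eq_1 f R g] at h2
          linarith
        · have h1 := a2 X _ Q R ((subset_insert_iff_of_notMem hg).1 hQ)
            (hR.trans (subset_insert g H))
          rw [sum_not h hX hg]
          linarith
      · rw [insert_inter_of_notMem hY] at hQ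
        rw [if_neg hY, sum_not h hX fun h' => hY (mem_inter.1 (hQ h')).2]
        exact a3 X Y Q R hQ hR
    · rw [E2_best h (F₁ := L₁) (F₂ := fun X Y => L₂ X Y + l) (F₃ := L₃)
          (fun X Y hX => if_pos hX) (fun X Y hX hY => by rw [if_neg hX, if_pos hY])
          fun X Y hX hY => by rw [if_neg hX, if_neg hY],
        E2_best h (F := Phi K f A U H)
          (F₁ := fun X Y => Phi K f (insert g A) (U.erase g) (insert g H) X Y + l)
          (F₂ := fun X Y => Phi K f A (U.erase g) (insert g H) X Y + l)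
          (F₃ := Phi K f A (U.erase g) H) ?_ ?_ ?_, E2_add_const, E2_add_const, E2_add_const]
      · have h1 := mul_le_mul_of_nonneg_left b2 t0
        have h2 := mul_le_mul_of_nonneg_left b3 (sub_nonneg.2 t1)
        have h3 := mul_nonneg t0 (mul_nonneg t0 hl)
        nlinarith
      · intro X Y hX
        have e1 : insert g H ∪ Mf K f (X.erase g) (insert g A) (U.erase g) =
            H ∪ Mf K f (X.erase g) (insert g A) (U.erase g) := by
          rw [insert_union, insert_eq_of_mem (mem_union_right _ (subset_Mf (mem_insert_self g A)))]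
        rw [Phi, Phi, Mf_in h hX, Nf_in h hX, inter_erase_eq notMem_Nf, e1,
          sum_in h hX fun h' => notMem_Nf (mem_inter.1 h').1, hl', mg, mg]
        ring
      · intro X Y hX hY
        have n1 : g ∉ Nf K f X A (U.erase g) ∩ Y := fun h' => notMem_Nf (mem_inter.1 h').1
        rw [Phi, Phi, Mf_not h hX, Nf_not h hX, inter_erase_eq notMem_Nf, insert_inter_of_mem hY,
          sum_insert n1, sum_not h hX n1, wt_self h, union_insert, insert_union, insert_union,
          hl', mg.eq_1 f H g]
        ring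
      · intro X Y hX hY
        rw [Phi, Phi, Mf_not h hX, Nf_not h hX, insert_inter_of_notMem hY,
          sum_not h hX fun h' => hY (mem_inter.1 h').2]

/-- the combinatorial core of the reduction -/
theorem core (hf : Sub f) (fn : ∀ S, 0 ≤ f S) (hK : K.E = Set.univ) {q : ℝ}
    (q0 : 0 ≤ q) (q1 : q ≤ 1) :
    ∃ (I : Finset E → Finset E) (L : Finset E → Finset E → ℝ),
      (∀ X, I X ⊆ Nf K f X ∅ univ ∧ K.Indep (I X : Set E)) ∧
      (∀ X Y Q, Q ⊆ Nf K f X ∅ univ ∩ Y → ∑ e ∈ Q, wt K f X ∅ univ e - L X Y ≤ f Q) ∧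
      ∀ O : Finset E, K.Indep (O : Set E) → q ^ 2 / 256 * f O ≤
        E2 (q / 8) univ fun X Y => q * ∑ e ∈ I X ∩ Y, wt K f X ∅ univ e - L X Y := by
  have t0 : 0 ≤ q / 8 := by linarith
  have t1 : q / 8 ≤ 1 := by linarith
  have h0 : (0 : ℝ) ≤ 1 / 2 := by norm_num
  have h1 : (1 / 2 : ℝ) ≤ 1 := by norm_num
  have hi : K.Indep ((∅ : Finset E) : Set E) := by simp
  obtain ⟨I, a1, b1⟩ := heavy hf hK ∅ univ ∅ (∑ e, f (insert e ∅)) hi hi
    (sum_nonneg fun e _ => fn _) fun e _ => (sub_le_self _ (fn _)).trans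
      (single_le_sum (f := fun e => f (insert e ∅)) (fun e _ => fn _) (mem_univ e))
  obtain ⟨L, a2, b2⟩ := loss (K := K) hf t0 t1 ∅ univ ∅ Subset.rfl (disjoint_empty_left _)
  refine ⟨I, fun X Y => L X Y - f ∅, fun X => by simpa using a1 X, fun X Y Q hQ => ?_,
    fun O hO => ?_⟩
  · have h2 := a2 X Y Q ∅ hQ Subset.rfl
    rw [empty_union] at h2
    linarith
  set P := Ex (1 / 2) univ fun X => tot K f X ∅ univ with hP
  have c1 : E2 (q / 8) univ (Phi K f ∅ univ ∅) ≤ q / 8 * (P + f ∅) := by
    rw [hP, ← Ex_const (1 / 2) (univ : Finset E) (f ∅), ← Ex_add, ← Ex_mul]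
    refine Ex_mono h0 h1 fun X _ => ?_
    have d1 := hf.thin t0 t1 (Nf K f X ∅ univ) univ (Mf K f X ∅ univ)
    have d2 := mul_nonneg t0 (fn (Mf K f X ∅ univ ∪ Nf K f X ∅ univ ∩ univ))
    have d3 := tot_eq (K := K) (f := f) X ∅ univ
    unfold Phi
    rw [Ex_add, Ex_add, Ex_sub, Ex_const, Ex_const, Ex_thin (subset_univ _), ← d3]
    simp only [empty_union]
    linarith
  have c2 : 1 / 2 * f O ≤ 2 * P + f ∅ := by
    have d1 := kept (K := K) hf O ∅ univ
    have d2 : 0 ≤ Ex (1 / 2) univ fun X => f (O ∪ Pk K f X ∅ univ) :=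
      (Ex_const (1 / 2) univ 0).symm.le.trans (Ex_mono h0 h1 fun X _ => fn _)
    have d3 : (Ex (1 / 2) univ fun X => f (O ∪ Mf K f X ∅ univ)) ≤ 2 * P + f ∅ := by
      rw [hP, ← Ex_const (1 / 2) (univ : Finset E) (f ∅), ← Ex_mul, ← Ex_add]
      refine Ex_mono h0 h1 fun X _ => ?_
      have d4 := greedy hf hK X ∅ univ O (subset_univ _) (by rwa [empty_union])
      have d5 := tot_eq (K := K) (f := f) X ∅ univ
      have d6 : 0 ≤ ∑ e ∈ Nf K f X ∅ univ, wt K f X ∅ univ e :=
        sum_nonneg fun e _ => wt_nonneg _ _ _ _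
      rw [union_comm] at d4
      linarith
    rw [union_empty] at d1
    linarith
  have c3 : (E2 (q / 8) univ fun X Y =>
      q * ∑ e ∈ I X ∩ Y, wt K f X ∅ univ e - (L X Y - f ∅)) =
      q * (q / 8 * Ex (1 / 2) univ fun X => ∑ e ∈ I X, wt K f X ∅ univ e) -
        (E2 (q / 8) univ L - f ∅) := by
    unfold E2
    simp only [Ex_sub, Ex_mul, Ex_thin (subset_univ _), Ex_const]
  have c4 : slack K ∅ ∅ = 0 := by simp [slack]
  rw [c4, mul_zero, mul_zero, add_zero] at b1
  rw [c3]
  have c5 := mul_le_mul_of_nonneg_left b1 (sq_nonneg q)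
  have c6 := mul_le_mul_of_nonneg_left c1 t0
  have c7 := mul_le_mul_of_nonneg_left c2 (sq_nonneg q)
  have c8 := mul_le_mul_of_nonneg_left (pow_le_one₀ q0 q1 (n := 2)) (fn ∅)
  have c9 := fn ∅
  nlinarith

end Vale.Agent.N331X
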