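import Mathlib.Combinatorics.Matroid.Basic
import Mathlib.MeasureTheory.Constructions.Pi
import Mathlib.MeasureTheory.Measure.Prod

/-!
# P331: online rules as adapted selections, submodular valuations: definitions
-/

namespace Vale.Agent.N331X

open MeasureTheory
open scoped ENNReal NNReal Classical

variable {E T : Type} [Fintype E] [MeasurableSpace T] {M : Matroid E}

/-- An arrival order: `π e` is the time at which `e` arrives. -/
abbrev Time (E : Type) [Fintype E] := E ≃ Fin (Fintype.card E)

/-- A measurable online rule; samples and values lie in `T`.  `A r s v π` is the set accepted for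
seed `r`, samples `s`, values `v` and order `π`.  Whether `e` is accepted depends only on the seed,
the samples and the arrivals (with their values) up to that of `e`. -/
structure Rule (M : Matroid E) (T : Type) [MeasurableSpace T] where
  Seed : Type
  [space : MeasurableSpace Seed]
  law : Measure Seed
  prob : IsProbabilityMeasure law
  A : Seed → (E → T) → (E → T) → Time E → Finset E
  meas : ∀ π e, MeasurableSet {ω : Seed × (E → T) × (E → T) | e ∈ A ω.1 ω.2.1 ω.2.2 π}
  indep : ∀ r s v π, M.Indep (A r s v π)
  online : ∀ r s v v' π π' e, (∀ g, π g ≤ π e → π' g = π g ∧ v' g = v g) →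
    (e ∈ A r s v π ↔ e ∈ A r s v' π')

attribute [instance] Rule.space

/-- `F v A` is the worth of the set `A` if the values are `v`.  For all laws `D` and every order
that is any function of seed, samples and values,
`c * E[max of F V I over independent I] ≤ E[F V (accepted set)]`. -/
def Rule.Competitive (R : Rule M T) (F : (E → T) → Finset E → ℝ≥0) (c : ℝ) : Prop :=
  ∀ D : E → Measure T, (∀ e, IsProbabilityMeasure (D e)) →
    ∀ π : R.Seed × (E → T) × (E → T) → Time E,
      ENNReal.ofReal c * ∫⁻ v, ⨆ (I : Finset E) (_ : M.Indep I), (F v I : ℝ≥0∞) ∂Measure.pi D ≤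
        ∫⁻ ω, F ω.2.2 (R.A ω.1 ω.2.1 ω.2.2 (π ω))
          ∂R.law.prod ((Measure.pi D).prod (Measure.pi D))

/-- `F v A` depends only on the values on `A`, measurably, and is submodular in `A`. -/
structure Submodular (F : (E → T) → Finset E → ℝ≥0) : Prop where
  loc : ∀ v v' A, (∀ e ∈ A, v e = v' e) → F v A = F v' A
  meas : ∀ A, Measurable fun v => F v A
  sub : ∀ v A B, F v (A ∪ B) + F v (A ∩ B) ≤ F v A + F v B

end Vale.Agent.N331X
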