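import Mathlib.Algebra.BigOperators.Group.Finset.Powerset
import Mathlib.Algebra.BigOperators.Ring.Finset
import Mathlib.Algebra.Order.BigOperators.Ring.Finset
import Mathlib.Data.Real.Basic
import Mathlib.Tactic.Linarith
import Mathlib.Tactic.Ring
import Mathlib.Tactic.Positivity

/-!
# P331: expectation over a random subset, submodular functions
-/

namespace Vale.Agent.N331X

open Finset
open scoped Classical

variable {E : Type}

/-- the probability of the subset `X` of `U` -/
noncomputable def pr (p : ℝ) (U X : Finset E) : ℝ := ∏ e ∈ U, if e ∈ X then p else 1 - p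

/-- expectation over a random subset of `U`, each element with probability `p` -/
noncomputable def Ex (p : ℝ) (U : Finset E) (F : Finset E → ℝ) : ℝ :=
  ∑ X ∈ U.powerset, pr p U X * F X

variable {p : ℝ} {U : Finset E} {F G : Finset E → ℝ}

theorem pr_nonneg (h0 : 0 ≤ p) (h1 : p ≤ 1) (U X : Finset E) : 0 ≤ pr p U X :=
  prod_nonneg fun e _ => by split_ifs <;> linarith

theorem Ex_step {g : E} (hg : g ∈ U) (F : Finset E → ℝ) :
    Ex p U F = p * Ex p (U.erase g) (fun X => F (insert g X)) + (1 - p) * Ex p (U.erase g) F := by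
  unfold Ex
  conv_lhs => rw [← insert_erase hg]
  rw [sum_powerset_insert (notMem_erase g U), mul_sum, mul_sum, add_comm]
  congr 1
  · refine sum_congr rfl fun X _ => ?_
    unfold pr
    rw [prod_insert (notMem_erase g U), if_pos (mem_insert_self g X), mul_assoc]
    congr 2
    refine prod_congr rfl fun e he => ?_
    simp only [mem_insert, ne_of_mem_erase he, false_or]
  · refine sum_congr rfl fun X hX => ?_
    unfold pr
    rw [prod_insert (notMem_erase g U), if_neg, mul_assoc]
    exact fun h => notMem_erase g U (mem_powerset.1 hX h)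

theorem Ex_congr (h : ∀ X ⊆ U, F X = G X) : Ex p U F = Ex p U G :=
  sum_congr rfl fun X hX => by rw [h X (mem_powerset.1 hX)]

theorem Ex_mono (h0 : 0 ≤ p) (h1 : p ≤ 1) (h : ∀ X ⊆ U, F X ≤ G X) : Ex p U F ≤ Ex p U G :=
  sum_le_sum fun X hX => mul_le_mul_of_nonneg_left (h X (mem_powerset.1 hX)) (pr_nonneg h0 h1 U X)

theorem Ex_add (F G : Finset E → ℝ) : Ex p U (fun X => F X + G X) = Ex p U F + Ex p U G := by
  simp only [Ex, mul_add, sum_add_distrib]

theorem Ex_sub (F G : Finset E → ℝ) : Ex p U (fun X => F X - G X) = Ex p U F - Ex p U G := by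
  simp only [Ex, mul_sub, sum_sub_distrib]

theorem Ex_mul (c : ℝ) (F : Finset E → ℝ) : Ex p U (fun X => c * F X) = c * Ex p U F := by
  simp only [Ex, mul_sum]
  exact sum_congr rfl fun X _ => by ring

theorem Ex_const (p : ℝ) (U : Finset E) (c : ℝ) : Ex p U (fun _ => c) = c := by
  induction U using Finset.induction_on with
  | empty => simp [Ex, pr]
  | insert g U hg ih =>
    rw [Ex_step (mem_insert_self g U), erase_insert hg, ih]
    ring

theorem Ex_sum {ι : Type} (s : Finset ι) (F : ι → Finset E → ℝ) :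
    Ex p U (fun X => ∑ i ∈ s, F i X) = ∑ i ∈ s, Ex p U (F i) := by
  simp only [Ex, mul_sum]
  exact sum_comm

theorem Ex_thin {S : Finset E} (hS : S ⊆ U) (a : E → ℝ) :
    Ex p U (fun Y => ∑ e ∈ S ∩ Y, a e) = p * ∑ e ∈ S, a e := by
  simp only [← sum_ite_mem]
  rw [Ex_sum, mul_sum]
  refine sum_congr rfl fun e he => ?_
  rw [Ex_step (hS he), Ex_congr (G := fun _ => a e), Ex_congr (F := fun X => if e ∈ X then a e else 0)
    (G := fun _ => 0), Ex_const, Ex_const]
  · ring
  · exact fun X hX => if_neg fun h => notMem_erase e U (hX h)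
  · exact fun X _ => if_pos (mem_insert_self e X)

/-- submodularity -/
def Sub (f : Finset E → ℝ) : Prop := ∀ A B, f (A ∪ B) + f (A ∩ B) ≤ f A + f B

/-- marginal value -/
noncomputable def mg (f : Finset E → ℝ) (A : Finset E) (e : E) : ℝ := f (insert e A) - f A

variable {f : Finset E → ℝ}

theorem Sub.mg_le (hf : Sub f) {A B : Finset E} {g : E} (h : A ⊆ B) (hg : g ∈ B → g ∈ A) :
    mg f B g ≤ mg f A g := by
  unfold mg
  by_cases hB : g ∈ B
  · rw [insert_eq_of_mem hB, insert_eq_of_mem (hg hB), sub_self, sub_self]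
  · have h1 := hf (insert g A) B
    rw [insert_union, union_eq_right.2 h, insert_inter_of_notMem hB, inter_eq_left.2 h] at h1
    linarith

theorem Sub.mg_le' (hf : Sub f) {A B : Finset E} {g : E} {m : ℝ} (h : A ⊆ B) (h0 : 0 ≤ m)
    (hm : mg f A g ≤ m) : mg f B g ≤ m := by
  by_cases hB : g ∈ B
  · unfold mg
    rw [insert_eq_of_mem hB, sub_self]
    exact h0
  · exact (hf.mg_le h fun h => absurd h hB).trans hm

theorem Sub.thin (hf : Sub f) (h0 : 0 ≤ p) (h1 : p ≤ 1) (S U A : Finset E) :
    (1 - p) * f A + p * f (A ∪ S ∩ U) ≤ Ex p U (fun Y => f (A ∪ S ∩ Y)) := by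
  induction U using Finset.induction_on generalizing A with
  | empty =>
    simp only [Ex, pr, powerset_empty, sum_singleton, prod_empty, inter_empty, union_empty]
    linarith
  | insert g U hg ih =>
    rw [Ex_step (mem_insert_self g U), erase_insert hg]
    by_cases hS : g ∈ S
    · have e1 : ∀ Y : Finset E, A ∪ S ∩ insert g Y = insert g A ∪ S ∩ Y := fun Y => by
        rw [inter_insert_of_mem hS, union_insert, insert_union]
      simp only [e1]
      have h2 := ih (insert g A)
      have h3 := ih A
      have h4 : mg f (A ∪ S ∩ U) g ≤ mg f A g := hf.mg_le subset_union_left fun h =>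
        (mem_union.1 h).resolve_right fun h => hg (mem_inter.1 h).2
      unfold mg at h4
      rw [← insert_union] at h4
      have h5 := mul_le_mul_of_nonneg_left h2 h0
      have h6 := mul_le_mul_of_nonneg_left h3 (sub_nonneg.2 h1)
      have h7 := mul_le_mul_of_nonneg_left h4 (mul_nonneg h0 (sub_nonneg.2 h1))
      nlinarith
    · simp only [inter_insert_of_notMem hS]
      have h3 := ih A
      linarith

/-- expectation over two independent random subsets -/
noncomputable def E2 (t : ℝ) (U : Finset E) (F : Finset E → Finset E → ℝ) : ℝ :=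
  Ex (1 / 2) U fun X => Ex t U (F X)

theorem E2_step {t : ℝ} {g : E} (hg : g ∈ U) (F : Finset E → Finset E → ℝ) :
    E2 t U F = 1 / 2 * (t * E2 t (U.erase g) (fun X Y => F (insert g X) (insert g Y)) +
        (1 - t) * E2 t (U.erase g) (fun X Y => F (insert g X) Y)) +
      1 / 2 * (t * E2 t (U.erase g) (fun X Y => F X (insert g Y)) +
        (1 - t) * E2 t (U.erase g) F) := by
  unfold E2
  rw [Ex_step hg]
  simp only [Ex_step (p := t) hg, Ex_add, Ex_mul]
  norm_num

theorem E2_congr {t : ℝ} {F G : Finset E → Finset E → ℝ}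
    (h : ∀ X ⊆ U, ∀ Y ⊆ U, F X Y = G X Y) : E2 t U F = E2 t U G :=
  Ex_congr fun X hX => Ex_congr (h X hX)

theorem E2_add_const {t : ℝ} (F : Finset E → Finset E → ℝ) (c : ℝ) :
    E2 t U (fun X Y => F X Y + c) = E2 t U F + c := by
  unfold E2
  simp only [Ex_add, Ex_const]

end Vale.Agent.N331X
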