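import Vale.Agent.N331X.Wt

/-!
# P331: the kept and the discarded elements of the simulated greedy algorithm
-/

namespace Vale.Agent.N331X

open Finset
open scoped Classical

variable {E : Type} [Fintype E]

/-- the final kept set -/
noncomputable def Mf (K : Matroid E) (f : Finset E → ℝ) (X A U : Finset E) : Finset E :=
  A ∪ Pk K f X A U ∩ X

/-- the picked elements which are not kept -/
noncomputable def Nf (K : Matroid E) (f : Finset E → ℝ) (X A U : Finset E) : Finset E :=
  Pk K f X A U \ X

/-- the total weight -/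
noncomputable def tot (K : Matroid E) (f : Finset E → ℝ) (X A U : Finset E) : ℝ :=
  ∑ e ∈ U, wt K f X A U e

variable {K : Matroid E} {f : Finset E → ℝ} {X A U : Finset E} {g e : E}

theorem Mf_none (h : ∀ e, ¬ Cand K f A U e) (X : Finset E) : Mf K f X A U = A := by
  rw [Mf, Pk_none h, empty_inter, union_empty]

theorem Nf_none (h : ∀ e, ¬ Cand K f A U e) (X : Finset E) : Nf K f X A U = ∅ := by
  rw [Nf, Pk_none h, empty_sdiff]

theorem tot_none (h : ∀ e, ¬ Cand K f A U e) (X : Finset E) : tot K f X A U = 0 :=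
  sum_eq_zero fun e _ => wt_none h X e

theorem tot_nonneg : 0 ≤ tot K f X A U := sum_nonneg fun e _ => wt_nonneg X A U e

theorem notMem_Nf : g ∉ Nf K f X A (U.erase g) := fun h => notMem_Pk (mem_sdiff.1 h).1

theorem Nf_subset : Nf K f X A U ⊆ U := sdiff_subset.trans Pk_subset

theorem subset_Mf : A ⊆ Mf K f X A U := subset_union_left

theorem Mf_in (h : Best K f A U g) (hX : g ∈ X) :
    Mf K f X A U = Mf K f (X.erase g) (insert g A) (U.erase g) := by
  rw [Mf, Mf, Pk_in h hX]
  ext e
  by_cases he : e = g <;> simp [he, hX]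

theorem Mf_not (h : Best K f A U g) (hX : g ∉ X) : Mf K f X A U = Mf K f X A (U.erase g) := by
  rw [Mf, Mf, Pk_not h hX, insert_inter_of_notMem hX]

theorem Nf_in (h : Best K f A U g) (hX : g ∈ X) :
    Nf K f X A U = Nf K f (X.erase g) (insert g A) (U.erase g) := by
  rw [Nf, Nf, Pk_in h hX]
  ext e
  by_cases he : e = g <;> simp [he, hX, notMem_Pk]

theorem Nf_not (h : Best K f A U g) (hX : g ∉ X) :
    Nf K f X A U = insert g (Nf K f X A (U.erase g)) := by
  rw [Nf, Nf, Pk_not h hX, insert_sdiff_of_notMem _ hX]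

theorem tot_in (h : Best K f A U g) (hX : g ∈ X) :
    tot K f X A U = tot K f (X.erase g) (insert g A) (U.erase g) + mg f A g := by
  rw [tot, tot, ← sum_erase_add _ _ h.1.1, wt_self h, sum_in h hX (notMem_erase g U)]

theorem tot_not (h : Best K f A U g) (hX : g ∉ X) :
    tot K f X A U = tot K f X A (U.erase g) + mg f A g := by
  rw [tot, tot, ← sum_erase_add _ _ h.1.1, wt_self h, sum_not h hX (notMem_erase g U)]

theorem tot_eq (X A U : Finset E) :
    f (Mf K f X A U) - f A + ∑ e ∈ Nf K f X A U, wt K f X A U e = tot K f X A U := by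
  induction A, U using ind K f generalizing X with
  | h0 A U h => rw [Mf_none h, Nf_none h, tot_none h, sum_empty, sub_self, add_zero]
  | h1 A U g h i1 i2 =>
    by_cases hX : g ∈ X
    · rw [Mf_in h hX, Nf_in h hX, tot_in h hX, sum_in h hX notMem_Nf, ← i1, mg]
      ring
    · rw [Mf_not h hX, Nf_not h hX, tot_not h hX, sum_insert notMem_Nf, sum_not h hX notMem_Nf,
        ← i2, wt_self h]
      ring

omit [Fintype E] in
theorem Cand.notMem (h : Cand K f A U g) : g ∉ A := fun h' => by
  have h1 := h.2.2
  rw [mg, insert_eq_of_mem h', sub_self] at h1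
  exact lt_irrefl _ h1

theorem Best.mg_le (h : Best K f A U g) {o : E} (ho : o ∈ U)
    (hi : K.Indep ((insert o A : Finset E) : Set E)) : mg f A o ≤ mg f A g := by
  by_cases h1 : 0 < mg f A o
  · exact h.le ⟨ho, hi, h1⟩
  · exact (not_lt.1 h1).trans h.1.2.2.le

omit [Fintype E] in
theorem exchange (hK : K.E = Set.univ) {O : Finset E} (hO : K.Indep ((A ∪ O : Finset E) : Set E))
    (hg : K.Indep ((insert g A : Finset E) : Set E)) :
    K.Indep ((insert g A ∪ O : Finset E) : Set E) ∨
      ∃ o ∈ O, K.Indep ((insert g A ∪ O.erase o : Finset E) : Set E) := by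
  by_cases h1 : g ∈ ((A ∪ O : Finset E) : Set E)
  · rw [insert_union, insert_eq_of_mem (mem_coe.1 h1)]
    exact Or.inl hO
  by_cases h2 : g ∈ K.closure ((A ∪ O : Finset E) : Set E)
  · right
    have hC := hO.fundCircuit_isCircuit h2 h1
    have h3 : ¬ K.fundCircuit g ((A ∪ O : Finset E) : Set E) ⊆ ((insert g A : Finset E) : Set E) :=
      fun h => hC.dep.not_indep (hg.subset h)
    obtain ⟨o, ho1, ho2⟩ := Set.not_subset.1 h3
    have h4 := K.fundCircuit_subset_insert _ _ ho1
    simp only [coe_insert, coe_union, Set.mem_insert_iff, Set.mem_union, mem_coe, not_or] at h4 ho2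
    refine ⟨o, (h4.resolve_left ho2.1).resolve_left ho2.2,
      ((hO.mem_fundCircuit_iff h2 h1).1 ho1).subset fun x hx => ?_⟩
    simp only [coe_insert, coe_union, coe_erase, Set.mem_insert_iff, Set.mem_union, mem_coe,
      Set.mem_sdiff, Set.mem_singleton_iff] at hx ⊢
    rcases hx with (rfl | hx) | hx
    · exact ⟨Or.inl rfl, fun h => ho2.1 h.symm⟩
    · exact ⟨Or.inr (Or.inl hx), fun h => ho2.2 (h ▸ hx)⟩
    · exact ⟨Or.inr (Or.inr hx.1), hx.2⟩
  · left
    rw [insert_union, coe_insert]
    exact (hO.insert_indep_iff_of_notMem h1).2 ⟨hK ▸ Set.mem_univ _, h2⟩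

theorem greedy (hf : Sub f) (hK : K.E = Set.univ) (X A U O : Finset E) (hO : O ⊆ U)
    (hi : K.Indep ((A ∪ O : Finset E) : Set E)) :
    f (Mf K f X A U ∪ O) - f (Mf K f X A U) ≤ tot K f X A U := by
  induction A, U using ind K f generalizing X O with
  | h0 A U h =>
    rw [Mf_none h, tot_none h]
    induction O using Finset.induction_on with
    | empty => rw [union_empty, sub_self]
    | insert o O ho ih =>
      have h1 := ih ((subset_insert _ _).trans hO)
        (hi.subset (coe_subset.2 (union_subset_union_right (subset_insert _ _))))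
      have h2 : mg f (A ∪ O) o ≤ 0 := hf.mg_le' subset_union_left le_rfl (not_lt.1 fun h2 =>
        h o ⟨hO (mem_insert_self _ _), hi.subset (coe_subset.2 (insert_subset
          (mem_union_right _ (mem_insert_self _ _)) subset_union_left)), h2⟩)
      rw [mg, ← union_insert] at h2
      linarith
  | h1 A U g h i1 i2 =>
    have hm := h.1.2.2.le
    have key : ∀ B : Finset E, A ⊆ B → ∀ o ∈ O, f (B ∪ O) ≤ f (B ∪ O.erase o) + mg f A g := by
      intro B hB o ho
      have h2 : mg f (B ∪ O.erase o) o ≤ mg f A g := hf.mg_le' (hB.trans subset_union_left) hm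
        (h.mg_le (hO ho) (hi.subset (coe_subset.2
          (insert_subset (mem_union_right _ ho) subset_union_left))))
      rw [mg, ← union_insert, insert_erase ho] at h2
      linarith
    by_cases hX : g ∈ X
    · rw [tot_in h hX, Mf_in h hX]
      set B := Mf K f (X.erase g) (insert g A) (U.erase g)
      have hB : insert g A ⊆ B := subset_Mf
      have e1 : ∀ O : Finset E, B ∪ O.erase g = B ∪ O := fun O => by
        ext x
        by_cases hx : x = g <;> simp [hx, hB (mem_insert_self g A)]
      rcases exchange hK hi h.1.2.1 with h1 | ⟨o, ho, h1⟩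
      · have h2 := i1 (X.erase g) (O.erase g) (erase_subset_erase _ hO)
          (h1.subset (coe_subset.2 (union_subset_union_right (erase_subset _ _))))
        rw [e1] at h2
        linarith
      · have h2 := i1 (X.erase g) ((O.erase o).erase g)
          (erase_subset_erase _ ((erase_subset _ _).trans hO))
          (h1.subset (coe_subset.2 (union_subset_union_right (erase_subset _ _))))
        rw [e1] at h2
        have h3 := key B ((subset_insert _ _).trans hB) o ho
        linarith
    · rw [tot_not h hX, Mf_not h hX]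
      have h2 := i2 X (O.erase g) (erase_subset_erase _ hO)
        (hi.subset (coe_subset.2 (union_subset_union_right (erase_subset _ _))))
      by_cases hg : g ∈ O
      · have h3 := key _ (subset_Mf (K := K) (f := f) (X := X) (U := U.erase g)) g hg
        linarith
      · rw [erase_eq_of_notMem hg] at h2
        linarith

omit [Fintype E] in
theorem not_mem_of_sub (hX : X ⊆ U.erase g) : g ∉ X := fun h => notMem_erase g U (hX h)

theorem Ex_best (h : Best K f A U g) {F F₁ F₂ : Finset E → ℝ}
    (h1 : ∀ X, g ∈ X → F X = F₁ (X.erase g)) (h2 : ∀ X, g ∉ X → F X = F₂ X) :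
    Ex (1 / 2) U F = 1 / 2 * Ex (1 / 2) (U.erase g) F₁ + 1 / 2 * Ex (1 / 2) (U.erase g) F₂ := by
  rw [Ex_step h.1.1, Ex_congr (G := F₁) fun X hX => by
    rw [h1 _ (mem_insert_self g X), erase_insert (not_mem_of_sub hX)],
    Ex_congr (F := F) (G := F₂) fun X hX => h2 X (not_mem_of_sub hX)]
  norm_num

theorem kept (hf : Sub f) (O A U : Finset E) :
    1 / 2 * f (O ∪ A) + 1 / 2 * Ex (1 / 2) U (fun X => f (O ∪ A ∪ Pk K f X A U)) ≤
      Ex (1 / 2) U (fun X => f (O ∪ Mf K f X A U)) := by
  induction A, U using ind K f with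
  | h0 A U h =>
    simp only [Mf_none h, Pk_none h, union_empty, Ex_const]
    linarith
  | h1 A U g h i1 i2 =>
    rw [Ex_best h (F₁ := fun X => f (O ∪ insert g A ∪ Pk K f X (insert g A) (U.erase g)))
        (F₂ := fun X => f (insert g (O ∪ A ∪ Pk K f X A (U.erase g))))
        (fun X hX => by rw [Pk_in h hX, union_insert, union_insert, insert_union])
        (fun X hX => by rw [Pk_not h hX, union_insert]),
      Ex_best h (F₁ := fun X => f (O ∪ Mf K f X (insert g A) (U.erase g)))
        (F₂ := fun X => f (O ∪ Mf K f X A (U.erase g)))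
        (fun X hX => by rw [Mf_in h hX]) (fun X hX => by rw [Mf_not h hX])]
    have h3 : Ex (1 / 2) (U.erase g) (fun X => f (insert g (O ∪ A ∪ Pk K f X A (U.erase g)))) ≤
        Ex (1 / 2) (U.erase g) (fun X => f (O ∪ A ∪ Pk K f X A (U.erase g)) + mg f (O ∪ A) g) :=
      Ex_mono (by norm_num) (by norm_num) fun X _ => by
        have h4 : mg f (O ∪ A ∪ Pk K f X A (U.erase g)) g ≤ mg f (O ∪ A) g :=
          hf.mg_le subset_union_left fun h => (mem_union.1 h).resolve_right notMem_Pk
        rw [mg] at h4
        linarith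
    rw [Ex_add, Ex_const, mg, ← union_insert] at h3
    linarith

end Vale.Agent.N331X
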