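import Vale.Agent.N331X.Rule

/-!
# P331: assembly for submodular valuations
-/

namespace Vale.Agent.N331X

open Finset MeasureTheory Vale.Agent.P331 Vale.Agent.P331.H819
open scoped ENNReal NNReal Classical

variable {E T : Type} [Fintype E] [MeasurableSpace T] {M : Matroid E} {D : Data M}
  {F : (E → T) → Finset E → ℝ≥0} {q : ℝ}

/-- the weights of the arriving elements -/
noncomputable def Wv (M : Matroid E) (F : (E → T) → Finset E → ℝ≥0) (X Y : Finset E)
    (s v : E → T) (g : E) : ℝ≥0 := W M (F (Function.update s g (v g))) X Y g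

/-- the accepted set -/
noncomputable def acc (D : Data M) (F : (E → T) → Finset E → ℝ≥0)
    (r : Finset E × Finset E × D.Sd) (s v : E → T) (π : Time E) : Finset E :=
  univ.filter fun e => 0 < Wv M F r.1 r.2.1 s v e ∧
    In D r.2.2 (W M (F s) r.1 r.2.1) (Wv M F r.1 r.2.1 s v) π e

theorem W_local (hF : Submodular F) {X Y : Finset E} {u u' : E → T} {e : E}
    (h : e ∉ X → ∀ g ∈ insert e X, u g = u' g) : W M (F u) X Y e = W M (F u') X Y e :=
  if_ctx_congr Iff.rfl (fun he => congrArg Real.toNNReal (wt_local fun S hS =>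
    congrArg NNReal.toReal (hF.loc _ _ S fun g hg => h he.1 g (hS hg)))) fun _ => rfl

theorem acc_eq (hF : Submodular F) (r : Finset E × Finset E × D.Sd) (s v : E → T) (π : Time E) :
    acc D F r s v π = acc0 D (F ((univ.filter (D.T r.2.2) \ r.1).piecewise v s)) r π := by
  set u := (univ.filter (D.T r.2.2) \ r.1).piecewise v s
  have h0 : ∀ g ∈ r.1, s g = u g := fun g hg =>
    (piecewise_eq_of_notMem _ _ _ fun h => (mem_sdiff.1 h).2 hg).symm
  have h1 : ∀ f, ¬ D.T r.2.2 f → W M (F s) r.1 r.2.1 f = W M (F u) r.1 r.2.1 f := fun f hf =>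
    W_local hF fun _ g hg => (mem_insert.1 hg).elim (fun h => h ▸ (piecewise_eq_of_notMem _ _ _
      fun h => hf (mem_filter.1 (mem_sdiff.1 h).1).2).symm) (h0 g)
  have h2 : ∀ f, D.T r.2.2 f → Wv M F r.1 r.2.1 s v f = W M (F u) r.1 r.2.1 f := fun f hf =>
    W_local hF fun hX g hg => by
      rcases mem_insert.1 hg with rfl | hg
      · rw [Function.update_self]
        exact (piecewise_eq_of_mem _ _ _
          (mem_sdiff.2 ⟨mem_filter.2 ⟨mem_univ _, hf⟩, hX⟩)).symm
      · rw [Function.update_of_ne (ne_of_mem_of_not_mem hg hX), h0 g hg]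
  refine filter_congr fun e _ => ?_
  rw [In_iff h1 h2, In_iff (fun _ _ => rfl) fun _ _ => rfl]
  exact and_congr_left fun he => by rw [h2 e he.1]

theorem W_meas {Ω : Type} [MeasurableSpace Ω] (hF : Submodular F) {u : Ω → E → T}
    (hu : Measurable u) (X Y : Finset E) (e : E) : Measurable fun ω => W M (F (u ω)) X Y e := by
  unfold W
  split_ifs
  · exact (wt_meas (fun S => ((hF.meas S).comp hu).coe_nnreal_real) _ _ _ _).real_toNNReal
  · exact measurable_const

theorem In_meas {Ω : Type} [MeasurableSpace Ω] (d : D.Sd)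
    {a b : Ω → E → ℝ≥0} (ha : ∀ y, Measurable fun ω => a ω y)
    (hb : ∀ y, Measurable fun ω => b ω y) (π : Time E) (e : E) :
    Measurable fun ω => In D d (a ω) (b ω) π e :=
  measurable_const.and (Measurable.forall fun B => measurable_const.imp
    ((measurableSet_setOfPred.1 (Data.measurableSet_LE d ha hb B)).imp
      (measurableSet_setOfPred.1 (Data.measurableSet_LE d ha hb _))))

theorem acc_meas (hF : Submodular F) (r : Finset E × Finset E × D.Sd) (π : Time E) (e : E) :
    Measurable fun y : (E → T) × (E → T) => e ∈ acc D F r y.1 y.2 π := by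
  have h1 : ∀ g, Measurable fun y : (E → T) × (E → T) => Wv M F r.1 r.2.1 y.1 y.2 g := fun g =>
    W_meas hF (u := fun y : (E → T) × (E → T) => Function.update y.1 g (y.2 g))
      (measurable_update'.comp (measurable_fst.prodMk
        ((measurable_pi_apply g).comp measurable_snd))) _ _ _
  simp only [acc, mem_filter, mem_univ, true_and]
  exact (measurable_const.lt (h1 e)).and
    (In_meas _ (fun g => W_meas hF measurable_fst _ _ g) h1 π e)

theorem meas_val {Ω : Type} [MeasurableSpace Ω] {A : Ω → Finset E}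
    (hA : ∀ e, Measurable fun ω => e ∈ A ω) {g : Ω → Finset E → ℝ≥0∞}
    (hg : ∀ S, Measurable fun ω => g ω S) : Measurable fun ω => g ω (A ω) := by
  have h : (fun ω => g ω (A ω)) = fun ω => ∑ S, if A ω = S then g ω S else 0 := by
    funext ω
    rw [sum_ite_eq, if_pos (mem_univ _)]
  rw [h]
  refine Finset.measurable_sum _ fun S _ => Measurable.ite ?_ (hg S) measurable_const
  simp only [Finset.ext_iff]
  exact (Measurable.forall fun e => (hA e).iff measurable_const).setOf

theorem hyb (L : E → Measure T) [∀ e, IsProbabilityMeasure (L e)] (X : Finset E) :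
    MeasurePreserving (fun ω : (E → T) × (E → T) => X.piecewise ω.2 ω.1)
      ((Measure.pi L).prod (Measure.pi L)) (Measure.pi L) := by
  have h1 := measurePreserving_pi (fun i => (L i).prod (L i)) L
    (f := fun i y => if i ∈ X then y.2 else y.1) fun i => by
      split_ifs
      exacts [measurePreserving_snd, measurePreserving_fst]
  exact h1.comp (measurePreserving_arrowProdEquivProdArrow T T E L L).symm

/-- the rule -/
noncomputable def rule (D : Data M) (hF : Submodular F) (q0 : 0 ≤ q) (q1 : q ≤ 1) : Rule M T :=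
  letI : MeasurableSpace (Finset E × Finset E × D.Sd) := ⊤
  { Seed := Finset E × Finset E × D.Sd
    law := ∑ r, ENNReal.ofReal (sw D q r) • Measure.dirac r
    prob := ⟨by
      have h := sw_sum (D := D) (q := q) fun _ => 1
      simp only [mul_one, wsum, E2, Ex_const] at h
      simp only [Measure.coe_finsetSum, Finset.sum_apply, Measure.smul_apply, measure_univ,
        smul_eq_mul, mul_one]
      rw [← ENNReal.ofReal_sum_of_nonneg fun r _ => sw_nonneg q0 q1 r, h, ENNReal.ofReal_one]⟩
    A := acc D F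
    meas := fun π e => (measurable_from_prod_countable_right
      (f := fun ω : _ × (E → T) × (E → T) => e ∈ acc D F ω.1 ω.2.1 ω.2.2 π)
      fun r => acc_meas hF r π e).setOf
    indep := fun _ _ _ _ => In.indep _ fun _ he => (mem_filter.1 he).2.2
    online := fun r s v v' π π' e h => by
      have h1 : ∀ g, π g ≤ π e → Wv M F r.1 r.2.1 s v' g = Wv M F r.1 r.2.1 s v g := fun g hg => by
        rw [Wv, Wv, (h g hg).2]
      simp only [acc, mem_filter, mem_univ, true_and]
      rw [h1 e le_rfl, In_online fun g hg => ⟨(h g hg).1, h1 g hg⟩] }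

theorem comp (hM : M.E = Set.univ) (hF : Submodular F) (q0 : 0 ≤ q) (q1 : q ≤ 1)
    (hD : N331.Sel D (ENNReal.ofReal q)) : (rule D hF q0 q1).Competitive F (q ^ 2 / 256) := by
  intro L hL π
  let _ : MeasurableSpace (Finset E × Finset E × D.Sd) := ⊤
  have m1 : ∀ r : Finset E × Finset E × D.Sd, Measurable fun y : (E → T) × (E → T) =>
      ⨅ o, (F y.2 (acc D F r y.1 y.2 o) : ℝ≥0∞) := fun r => Measurable.iInf fun o =>
    meas_val (g := fun (y : (E → T) × (E → T)) S => (F y.2 S : ℝ≥0∞)) (acc_meas hF r o)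
      fun S => ((hF.meas S).comp measurable_snd).coe_nnreal_ennreal
  have e1 : ∀ (r : Finset E × Finset E × D.Sd) u o, acc D F r u u o = acc0 D (F u) r o :=
    fun r u o => by rw [acc_eq hF, piecewise_same]
  have m2 : ∀ r : Finset E × Finset E × D.Sd, Measurable fun u : E → T =>
      ⨅ o, (F u (acc0 D (F u) r o) : ℝ≥0∞) := fun r => by
    simpa only [Function.comp_def, e1, id] using (m1 r).comp (measurable_id.prodMk measurable_id)
  have m3 : Measurable fun v : E → T => ⨆ (I : Finset E) (_ : M.Indep I), (F v I : ℝ≥0∞) :=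
    Measurable.iSup fun I => Measurable.iSup fun _ => (hF.meas I).coe_nnreal_ennreal
  have m4 := measurable_from_prod_countable_right (f := fun ω : _ × (E → T) × (E → T) =>
    ⨅ o, (F ω.2.2 (acc D F ω.1 ω.2.1 ω.2.2 o) : ℝ≥0∞)) m1
  refine le_trans ?_ (lintegral_mono fun ω => iInf_le
    (fun o => (F ω.2.2 (acc D F ω.1 ω.2.1 ω.2.2 o) : ℝ≥0∞)) (π ω))
  refine le_of_le_of_eq ?_ (lintegral_prod _ m4.aemeasurable).symm
  refine le_of_le_of_eq ?_ (lintegral_finsetSum_measure _ _ _).symm
  simp only [lintegral_smul_measure, lintegral_dirac, smul_eq_mul]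
  have e2 : ∀ r : Finset E × Finset E × D.Sd,
      ∫⁻ y, ⨅ o, (F y.2 (acc D F r y.1 y.2 o) : ℝ≥0∞) ∂(Measure.pi L).prod (Measure.pi L) =
      ∫⁻ u, ⨅ o, (F u (acc0 D (F u) r o) : ℝ≥0∞) ∂Measure.pi L := fun r => by
    rw [← (hyb L (univ.filter (D.T r.2.2) \ r.1)).lintegral_comp (m2 r)]
    refine lintegral_congr fun y => iInf_congr fun o => ?_
    rw [acc_eq hF]
    refine congrArg _ (hF.loc _ _ _ fun e he => (piecewise_eq_of_mem _ _ _ ?_).symm)
    have h1 := (mem_filter.1 he).2
    exact mem_sdiff.2 ⟨mem_filter.2 ⟨mem_univ _, h1.2.1⟩,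
      (mem_sdiff.1 (mem_inter.1 (W_pos h1.1)).1).2⟩
  simp only [e2]
  rw [← lintegral_const_mul _ m3, sum_congr rfl fun r _ => (lintegral_const_mul _ (m2 r)).symm,
    ← lintegral_finsetSum _ fun r _ => (m2 r).const_mul _]
  refine lintegral_mono fun u => ?_
  have _ : Nonempty (Time E) := ⟨Fintype.equivFin E⟩
  choose o ho using fun r : Finset E × Finset E × D.Sd =>
    exists_eq_ciInf_of_finite (f := fun o => (F u (acc0 D (F u) r o) : ℝ≥0∞))
  simp only [← ho, ENNReal.mul_iSup]
  refine iSup₂_le fun I hI => ?_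
  have h1 := ENNReal.ofReal_le_ofReal (gain hM q0 q1 hD (hF.sub u) o hI)
  rw [ENNReal.ofReal_mul (by positivity), ENNReal.ofReal_sum_of_nonneg fun r _ =>
    mul_nonneg (sw_nonneg q0 q1 r) (NNReal.coe_nonneg _)] at h1
  simpa only [ENNReal.ofReal_mul (sw_nonneg q0 q1 _), ENNReal.ofReal_coe_nnreal] using h1

theorem main (M : Matroid E) (hM : M.E = Set.univ) (hF : Submodular F) :
    ∃ R : Rule M T, R.Competitive F (Real.exp (-41000000) ^ 2 / 256) := by
  obtain ⟨P, hG, hS⟩ := N331.good le_rfl
  obtain ⟨D, hw, hv, hok, hsum⟩ := N331.sock le_rfl hG hS M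
  have hp : D.w D.v = 2 * Real.exp (-41000000) := by
    rw [hw, hv]
    exact (by rw [one_pow, div_one] : _ / (1 : ℝ) ^ 4 = _)
  exact ⟨_, comp hM hF (Real.exp_pos _).le (Real.exp_le_one_iff.2 (by norm_num))
    (N331.sel_of_good fun lt hlt b hb => le_trans (by rw [hp]; linarith)
      (N331.good_of_ev hM hlt (hok lt hlt) hb (hsum lt hlt b hb)))⟩

omit [Fintype E] in
theorem additive : Submodular fun (v : E → ℝ≥0) A => ∑ e ∈ A, v e :=
  ⟨fun _ _ _ h => sum_congr rfl h, fun _ => by fun_prop, fun _ _ _ => sum_union_inter.le⟩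

end Vale.Agent.N331X
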