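import Vale.Agent.N331X.Core
import Vale.Agent.N331X.Defs
import Vale.Agent.N331.Main

/-!
# P331: the rule for submodular valuations
-/

namespace Vale.Agent.N331X

open Finset MeasureTheory Vale.Agent.P331 Vale.Agent.P331.H819 Vale.Agent.P331.Osel
open scoped ENNReal NNReal Classical

variable {E T : Type} [Fintype E] {M : Matroid E} {D : Data M} {d : D.Sd} {a b b' u : E → ℝ≥0}
  {π π' : Time E} {e : E} {q : ℝ}

/-- the decision of the static rule -/
def In (D : Data M) (d : D.Sd) (a b : E → ℝ≥0) (π : Time E) (e : E) : Prop :=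
  D.T d e ∧ ∀ B : Set E, (∀ f ∈ B, π f < π e ∧ D.T d f) → D.LE d a b B → D.LE d a b (insert e B)

theorem In.indep (B : Finset E) (h : ∀ e ∈ B, In D d a b π e) : M.Indep (B : Set E) := by
  refine D.indep d _ (Data.klt_strict _) _ (fun f hf => (h f hf).1) (?_ : D.LE d a b B)
  induction B using induction_on_max_value π with
  | empty =>
    rw [coe_empty]
    exact D.empty d _
  | insert e B he hB ih =>
    rw [coe_insert]
    exact (h e (mem_insert_self _ _)).2 B (fun f hf => ⟨(hB f hf).lt_of_ne fun h' =>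
      he (π.injective h' ▸ hf), (h f (mem_insert_of_mem hf)).1⟩)
      (ih fun f hf => h f (mem_insert_of_mem hf))

theorem In_iff (hs : ∀ f, ¬ D.T d f → a f = u f) (hv : ∀ f, D.T d f → b f = u f) :
    In D d a b π e ↔ D.T d e ∧ ∀ B : Set E, (∀ f ∈ B, π f < π e ∧ D.T d f) →
      D.Leg d (klt u) B → D.Leg d (klt u) (insert e B) := by
  refine and_congr_right fun he => forall_congr' fun B => forall_congr' fun hB => ?_
  rw [Data.LE_congr hs hv fun f hf => (hB f hf).2, Data.LE_congr hs hv]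
  rintro f (rfl | hf)
  exacts [he, (hB f hf).2]

theorem In_online (h : ∀ g, π g ≤ π e → π' g = π g ∧ b' g = b g) :
    In D d a b π e ↔ In D d a b' π' e := by
  have h1 : ∀ f, π' f < π' e ↔ π f < π e := fun f => by
    rw [(h e le_rfl).1]
    refine ⟨fun hf => ?_, fun hf => (h f hf.le).1 ▸ hf⟩
    have h2 := (h (π.symm (π' f)) (by rw [π.apply_symm_apply]; exact hf.le)).1
    rw [π.apply_symm_apply] at h2
    rwa [← π'.injective h2, π.apply_symm_apply]
  have h2 : ∀ B : Set E, (∀ f ∈ B, π f ≤ π e) → (D.LE d a b B ↔ D.LE d a b' B) := fun B hB => by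
    unfold Data.LE
    rw [show (fun g => if g ∈ B then b g else a g) = fun g => if g ∈ B then b' g else a g from
      funext fun g => if_ctx_congr Iff.rfl (fun hg => (h g (hB g hg)).2.symm) fun _ => rfl]
  simp only [In, h1]
  refine and_congr_right fun _ => forall_congr' fun B => forall_congr' fun hB => ?_
  rw [h2 B fun f hf => (hB f hf).1.le, h2]
  rintro f (rfl | hf)
  exacts [le_rfl, (hB f hf).1.le]

omit [Fintype E] in
theorem wfin (D : Data M) (d : D.Sd) : D.w d ≠ ∞ :=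
  ne_top_of_le_ne_top ENNReal.one_ne_top
    (D.w_sum ▸ single_le_sum (fun _ _ => zero_le) (mem_univ d))

omit [Fintype E] in
theorem wsum (D : Data M) : ∑ d, (D.w d).toReal = 1 := by
  rw [← ENNReal.toReal_sum fun d _ => wfin D d, D.w_sum, ENNReal.toReal_one]

theorem step (hM : M.E = Set.univ) (q0 : 0 ≤ q) (hD : N331.Sel D (ENNReal.ofReal q))
    (u : E → ℝ≥0) (o : D.Sd → Time E) {I : Finset E} (hI : M.Indep (I : Set E)) :
    q * ∑ e ∈ I, (u e : ℝ) ≤ ∑ d, (D.w d).toReal *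
      ∑ e ∈ univ.filter fun e => 0 < u e ∧ In D d u u (o d) e, (u e : ℝ) := by
  have h1 : ENNReal.ofReal q * ∑ e ∈ I, (u e : ℝ≥0∞) ≤ ∑ d, D.w d *
      ∑ e ∈ univ.filter fun e => 0 < u e ∧ In D d u u (o d) e, (u e : ℝ≥0∞) :=
    calc _ ≤ ENNReal.ofReal q * ∑ z ∈ univ.filter (Gr M u), (u z : ℝ≥0∞) :=
          mul_le_mul_right ((le_iSup₂_of_le (f := fun (I : Finset E) (_ : M.Indep (I : Set E)) =>
            ∑ e ∈ I, (u e : ℝ≥0∞)) I hI le_rfl).trans (Data.opt_le_Gr hM u)) _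
      _ ≤ ∑ z ∈ univ.filter (Gr M u),
          (∑ r, D.w r * (if D.T r z ∧ D.Safe r (klt u) z then 1 else 0)) * (u z : ℝ≥0∞) := by
          rw [mul_sum]
          exact sum_le_sum fun z hz =>
            mul_le_mul_left (hD (klt u) (Data.klt_strict u) z (mem_filter.1 hz).2) _
      _ = ∑ r, D.w r * ∑ z ∈ univ.filter (Gr M u),
          (if D.T r z ∧ D.Safe r (klt u) z then (u z : ℝ≥0∞) else 0) := by
          simp only [sum_mul, mul_sum]
          rw [sum_comm]
          refine sum_congr rfl fun r _ => sum_congr rfl fun z _ => ?_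
          split_ifs <;> simp
      _ ≤ _ := by
          refine sum_le_sum fun r _ => mul_le_mul_right ?_ _
          rw [← sum_filter]
          refine sum_le_sum_of_ne_zero fun z hz h0 => mem_filter.2 ⟨mem_univ _,
            pos_iff_ne_zero.2 fun h => h0 (by rw [h, ENNReal.coe_zero]), ?_⟩
          have h1 := (mem_filter.1 hz).2
          exact (In_iff (fun _ _ => rfl) fun _ _ => rfl).2 ⟨h1.1, fun B hB =>
            h1.2 B fun f hf => ⟨fun h => (hB f hf).1.ne (h ▸ rfl), (hB f hf).2⟩⟩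
  have h2 : ∀ S : Finset E, ∑ e ∈ S, (u e : ℝ≥0∞) ≠ ∞ := fun S =>
    ENNReal.sum_ne_top.2 fun _ _ => ENNReal.coe_ne_top
  have h3 := ENNReal.toReal_mono
    (ENNReal.sum_ne_top.2 fun d _ => ENNReal.mul_ne_top (wfin D d) (h2 _)) h1
  rw [ENNReal.toReal_sum fun d _ => ENNReal.mul_ne_top (wfin D d) (h2 _)] at h3
  simpa only [ENNReal.toReal_mul, ENNReal.toReal_ofReal q0, ← ENNReal.ofNNReal_finsetSum,
    ENNReal.coe_toReal, NNReal.coe_sum] using h3

/-- the linear weights -/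
noncomputable def W (M : Matroid E) (F : Finset E → ℝ≥0) (X Y : Finset E) (e : E) : ℝ≥0 :=
  if e ∉ X ∧ e ∈ Y then (wt M (fun S => (F S : ℝ)) X ∅ univ e).toNNReal else 0

theorem W_pos {F : Finset E → ℝ≥0} {X Y : Finset E} (h : 0 < W M F X Y e) :
    e ∈ Nf M (fun S => (F S : ℝ)) X ∅ univ ∩ Y := by
  unfold W at h
  split_ifs at h with h1
  · exact mem_inter.2 ⟨mem_sdiff.2 ⟨mem_filter.2 ⟨mem_univ _, Real.toNNReal_pos.1 h⟩, h1.1⟩, h1.2⟩
  · exact absurd h (lt_irrefl _)

theorem W_sum {F : Finset E → ℝ≥0} {X Y Q : Finset E}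
    (h : Q ⊆ Nf M (fun S => (F S : ℝ)) X ∅ univ ∩ Y) :
    ∑ e ∈ Q, (W M F X Y e : ℝ) = ∑ e ∈ Q, wt M (fun S => (F S : ℝ)) X ∅ univ e :=
  sum_congr rfl fun e he => by
    rw [W, if_pos ⟨(mem_sdiff.1 (mem_inter.1 (h he)).1).2, (mem_inter.1 (h he)).2⟩,
      Real.coe_toNNReal _ (wt_nonneg _ _ _ _)]

/-- the weight of a seed -/
noncomputable def sw (D : Data M) (q : ℝ) (r : Finset E × Finset E × D.Sd) : ℝ :=
  pr (1 / 2) univ r.1 * (pr (q / 8) univ r.2.1 * (D.w r.2.2).toReal)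

theorem sw_sum (G : Finset E × Finset E × D.Sd → ℝ) : ∑ r, sw D q r * G r =
    E2 (q / 8) univ fun X Y => ∑ d, (D.w d).toReal * G (X, Y, d) := by
  simp only [E2, Ex, powerset_univ, Fintype.sum_prod_type, sw, mul_sum, mul_assoc]

theorem sw_nonneg (q0 : 0 ≤ q) (q1 : q ≤ 1) (r : Finset E × Finset E × D.Sd) : 0 ≤ sw D q r :=
  mul_nonneg (pr_nonneg (by norm_num) (by norm_num) _ _)
    (mul_nonneg (pr_nonneg (by linarith) (by linarith) _ _) ENNReal.toReal_nonneg)

/-- the accepted set if samples and values agree -/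
noncomputable def acc0 (D : Data M) (F : Finset E → ℝ≥0) (r : Finset E × Finset E × D.Sd)
    (π : Time E) : Finset E :=
  univ.filter fun e => 0 < W M F r.1 r.2.1 e ∧ In D r.2.2 (W M F r.1 r.2.1) (W M F r.1 r.2.1) π e

theorem gain (hM : M.E = Set.univ) (q0 : 0 ≤ q) (q1 : q ≤ 1) (hD : N331.Sel D (ENNReal.ofReal q))
    {F : Finset E → ℝ≥0} (hF : ∀ A B, F (A ∪ B) + F (A ∩ B) ≤ F A + F B)
    (o : Finset E × Finset E × D.Sd → Time E) {O : Finset E} (hO : M.Indep (O : Set E)) :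
    q ^ 2 / 256 * F O ≤ ∑ r, sw D q r * F (acc0 D F r (o r)) := by
  obtain ⟨I, L, h1, h2, h3⟩ := core (K := M) (f := fun S => (F S : ℝ))
    (fun A B => by exact_mod_cast hF A B) (fun S => (F S).2) hM q0 q1
  rw [sw_sum]
  refine (h3 O hO).trans (Ex_mono (by norm_num) (by norm_num) fun X _ =>
    Ex_mono (by linarith) (by linarith) fun Y _ => ?_)
  have h4 := step hM q0 hD (W M F X Y) (fun d => o (X, Y, d)) (I := I X ∩ Y)
    ((h1 X).2.subset (coe_subset.2 inter_subset_left))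
  rw [W_sum (inter_subset_inter (h1 X).1 Subset.rfl)] at h4
  refine (sub_le_sub_right h4 _).trans ?_
  rw [← one_mul (L X Y), ← wsum D, sum_mul, ← sum_sub_distrib]
  refine sum_le_sum fun d _ => ?_
  have h5 : acc0 D F (X, Y, d) (o (X, Y, d)) ⊆ _ := fun e he => W_pos (mem_filter.1 he).2.1
  rw [← mul_sub]
  exact mul_le_mul_of_nonneg_left ((sub_le_sub_right (W_sum h5).le _).trans (h2 X Y _ h5))
    ENNReal.toReal_nonneg

end Vale.Agent.N331X
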