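import Vale.Agent.N331X.Ex
import Mathlib.Combinatorics.Matroid.Circuit
import Mathlib.Combinatorics.Matroid.Rank.ENat
import Mathlib.MeasureTheory.Constructions.BorelSpace.Order
import Mathlib.MeasureTheory.Constructions.BorelSpace.Real
import Mathlib.MeasureTheory.Group.Arithmetic

/-!
# P331: the simulated greedy algorithm and its weights
-/

namespace Vale.Agent.N331X

open Finset
open scoped Classical

variable {E : Type} [Fintype E]

/-- a fixed numbering of the elements -/
noncomputable def ix (e : E) : ℕ := Fintype.equivFin E e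

theorem ix_inj {a b : E} (h : ix a = ix b) : a = b :=
  (Fintype.equivFin E).injective (Fin.ext h)

/-- candidates of the greedy algorithm in the state `(A, U)` -/
def Cand (K : Matroid E) (f : Finset E → ℝ) (A U : Finset E) (e : E) : Prop :=
  e ∈ U ∧ K.Indep ((insert e A : Finset E) : Set E) ∧ 0 < mg f A e

/-- the best candidate -/
def Best (K : Matroid E) (f : Finset E → ℝ) (A U : Finset E) (g : E) : Prop :=
  Cand K f A U g ∧ ∀ e, Cand K f A U e →
    mg f A e < mg f A g ∨ (mg f A e = mg f A g ∧ ix g ≤ ix e)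

/-- the marginal value of `e` at the time when the greedy algorithm, which keeps only the elements
of `X`, picks it -/
noncomputable def wt (K : Matroid E) (f : Finset E → ℝ) (X A U : Finset E) (e : E) : ℝ :=
  ∑ g ∈ U.attach, if Best K f A U g.1 then
    (if e = g.1 then mg f A e else if g.1 ∈ X then wt K f X (insert g.1 A) (U.erase g.1) e
      else wt K f X A (U.erase g.1) e) else 0
termination_by U.card
decreasing_by all_goals exact card_erase_lt_of_mem g.2

variable {K : Matroid E} {f f' : Finset E → ℝ} {X X' A U : Finset E} {g e : E}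

theorem Best.unique {g' : E} (h : Best K f A U g) (h' : Best K f A U g') : g = g' := by
  rcases h.2 g' h'.1 with h1 | h1 <;> rcases h'.2 g h.1 with h2 | h2
  · exact absurd h1 h2.not_gt
  · exact absurd h1 (h2.1 ▸ lt_irrefl _)
  · exact absurd h2 (h1.1 ▸ lt_irrefl _)
  · exact ix_inj (le_antisymm h1.2 h2.2)

theorem Best.le (h : Best K f A U g) (he : Cand K f A U e) : mg f A e ≤ mg f A g :=
  (h.2 e he).elim le_of_lt fun h => h.1.le

theorem exists_best (h : Cand K f A U e) : ∃ g, Best K f A U g := by
  obtain ⟨a, ha, hm⟩ := exists_max_image (univ.filter (Cand K f A U)) (mg f A)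
    ⟨e, mem_filter.2 ⟨mem_univ _, h⟩⟩
  obtain ⟨g, hg, hi⟩ := exists_min_image
    (univ.filter fun g => Cand K f A U g ∧ mg f A g = mg f A a) ix
    ⟨a, mem_filter.2 ⟨mem_univ _, (mem_filter.1 ha).2, rfl⟩⟩
  obtain ⟨h1, h2⟩ := (mem_filter.1 hg).2
  refine ⟨g, h1, fun b hb => ?_⟩
  rcases (hm b (mem_filter.2 ⟨mem_univ _, hb⟩)).lt_or_eq with h3 | h3
  · exact Or.inl (h2 ▸ h3)
  · exact Or.inr ⟨h3.trans h2.symm, hi b (mem_filter.2 ⟨mem_univ _, hb, h3⟩)⟩

theorem wt_best (h : Best K f A U g) (X : Finset E) (e : E) :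
    wt K f X A U e = if e = g then mg f A e else if g ∈ X then
      wt K f X (insert g A) (U.erase g) e else wt K f X A (U.erase g) e := by
  rw [wt, sum_eq_single ⟨g, h.1.1⟩, if_pos h]
  · exact fun b _ hb => if_neg fun h' => hb (Subtype.ext (h'.unique h))
  · exact fun h' => absurd (mem_attach _ _) h'

theorem wt_none (h : ∀ e, ¬ Cand K f A U e) (X : Finset E) (e : E) : wt K f X A U e = 0 := by
  rw [wt]
  exact sum_eq_zero fun g _ => if_neg fun h' => h _ h'.1

theorem ind (K : Matroid E) (f : Finset E → ℝ) {P : Finset E → Finset E → Prop}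
    (h0 : ∀ A U, (∀ e, ¬ Cand K f A U e) → P A U)
    (h1 : ∀ A U g, Best K f A U g → P (insert g A) (U.erase g) → P A (U.erase g) → P A U)
    (A U : Finset E) : P A U := by
  induction U using Finset.strongInduction generalizing A with
  | H U ih =>
    by_cases h : ∃ e, Cand K f A U e
    · obtain ⟨e, he⟩ := h
      obtain ⟨g, hg⟩ := exists_best he
      exact h1 A U g hg (ih _ (erase_ssubset hg.1.1) _) (ih _ (erase_ssubset hg.1.1) _)
    · exact h0 A U fun e he => h ⟨e, he⟩

theorem wt_nonneg (X A U : Finset E) (e : E) : 0 ≤ wt K f X A U e := by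
  induction A, U using ind K f with
  | h0 A U h => rw [wt_none h]
  | h1 A U g h i1 i2 =>
    rw [wt_best h]
    split_ifs with h1
    · exact h1 ▸ h.1.2.2.le
    exacts [i1, i2]

theorem wt_out (he : e ∉ U) : wt K f X A U e = 0 := by
  induction A, U using ind K f with
  | h0 A U h => rw [wt_none h]
  | h1 A U g h i1 i2 =>
    have h2 : e ∉ U.erase g := fun h => he (mem_of_mem_erase h)
    rw [wt_best h, if_neg fun h' : e = g => he (h' ▸ h.1.1), i1 h2, i2 h2, ite_self]

omit [Fintype E] in
theorem cand_congr (hf : ∀ S ⊆ A ∪ U, f S = f' S) (he : e ∈ U) : mg f A e = mg f' A e := by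
  unfold mg
  rw [hf _ (insert_subset (mem_union_right _ he) subset_union_left), hf _ subset_union_left]

theorem wt_congr (hf : ∀ S ⊆ A ∪ U, f S = f' S) (hX : ∀ e ∈ U, e ∈ X ↔ e ∈ X') (e : E) :
    wt K f X A U e = wt K f' X' A U e := by
  induction A, U using ind K f with
  | h0 A U h =>
    rw [wt_none h, wt_none fun e he => h e ⟨he.1, he.2.1, cand_congr hf he.1 ▸ he.2.2⟩]
  | h1 A U g h i1 i2 =>
    have hg := h.1.1
    have h' : Best K f' A U g := ⟨⟨hg, h.1.2.1, cand_congr hf hg ▸ h.1.2.2⟩, fun b hb => by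
      rw [← cand_congr hf hg, ← cand_congr hf hb.1]
      exact h.2 b ⟨hb.1, hb.2.1, cand_congr hf hb.1 ▸ hb.2.2⟩⟩
    have hX' : ∀ e ∈ U.erase g, e ∈ X ↔ e ∈ X' := fun e he => hX e (mem_of_mem_erase he)
    rw [wt_best h, wt_best h', i1 (fun S hS => hf S (hS.trans ?_)) hX',
      i2 (fun S hS => hf S (hS.trans (union_subset_union_right (erase_subset _ _)))) hX']
    · by_cases he : e = g
      · rw [if_pos he, if_pos he, he, cand_congr hf hg]
      · rw [if_neg he, if_neg he]
        simp only [hX g hg]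
    · exact union_subset (insert_subset (mem_union_right _ hg) subset_union_left)
        ((erase_subset _ _).trans subset_union_right)

theorem wt_restrict {V : Finset E} (hV : V ⊆ U) (h : ∀ g ∈ U, g ∈ X ∨ g = e → g ∈ V) :
    wt K f X A U e = wt K f X A V e := by
  induction A, U using ind K f generalizing V with
  | h0 A U h0 => rw [wt_none h0, wt_none fun e he => h0 e ⟨hV he.1, he.2⟩]
  | h1 A U g hb i1 i2 =>
    by_cases hg : g ∈ V
    · have h' : Best K f A V g := ⟨⟨hg, hb.1.2⟩, fun b h => hb.2 b ⟨hV h.1, h.2⟩⟩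
      have h2 : ∀ b ∈ U.erase g, b ∈ X ∨ b = e → b ∈ V.erase g := fun b h1 h2 =>
        mem_erase.2 ⟨ne_of_mem_erase h1, h b (mem_of_mem_erase h1) h2⟩
      rw [wt_best hb, wt_best h', i1 (erase_subset_erase _ hV) h2, i2 (erase_subset_erase _ hV) h2]
    · rw [wt_best hb, if_neg fun h' : e = g => hg (h g hb.1.1 (Or.inr h'.symm)),
        if_neg fun h' => hg (h g hb.1.1 (Or.inl h'))]
      exact i2 (subset_erase.2 ⟨hV, hg⟩) fun b h1 => h b (mem_of_mem_erase h1)

/-- the weight of `e` depends only on the values of `f` on the subsets of `X` with `e` added -/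
theorem wt_local (hf : ∀ S ⊆ insert e X, f S = f' S) :
    wt K f X ∅ univ e = wt K f' X ∅ univ e := by
  have h : ∀ g ∈ (univ : Finset E), g ∈ X ∨ g = e → g ∈ insert e X := fun g _ h =>
    mem_insert.2 h.symm
  rw [wt_restrict (subset_univ _) h, wt_restrict (f := f') (subset_univ _) h]
  exact wt_congr (by rwa [empty_union]) (fun _ _ => Iff.rfl) e

theorem wt_meas {Ω : Type} [MeasurableSpace Ω] {F : Ω → Finset E → ℝ}
    (hF : ∀ S, Measurable fun ω => F ω S) (X A U : Finset E) (e : E) :
    Measurable fun ω => wt K (F ω) X A U e := by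
  have hm : ∀ A e, Measurable fun ω => mg (F ω) A e := fun A e => (hF _).sub (hF _)
  have hc : ∀ A U e, Measurable fun ω => Cand K (F ω) A U e := fun A U e =>
    measurable_const.and (measurable_const.and (measurable_const.lt (hm A e)))
  have hb : ∀ A U g, MeasurableSet {ω | Best K (F ω) A U g} := fun A U g =>
    ((hc A U g).and (Measurable.forall fun e => (hc A U e).imp (((hm A e).lt (hm A g)).or
      (((hm A e).eq (hm A g)).and measurable_const)))).setOf
  induction U using Finset.strongInduction generalizing A with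
  | H U ih =>
    have h : (fun ω => wt K (F ω) X A U e) = fun ω => ∑ g ∈ U.attach,
        if Best K (F ω) A U g.1 then (if e = g.1 then mg (F ω) A e else if g.1 ∈ X then
          wt K (F ω) X (insert g.1 A) (U.erase g.1) e else wt K (F ω) X A (U.erase g.1) e)
        else 0 := by
      funext ω
      rw [wt]
    rw [h]
    refine Finset.measurable_sum _ fun g _ => Measurable.ite (hb A U g) ?_ measurable_const
    split_ifs
    exacts [hm A e, ih _ (erase_ssubset g.2) _, ih _ (erase_ssubset g.2) _]

/-- the picked elements -/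
noncomputable def Pk (K : Matroid E) (f : Finset E → ℝ) (X A U : Finset E) : Finset E :=
  U.filter fun e => 0 < wt K f X A U e

theorem Pk_subset : Pk K f X A U ⊆ U := filter_subset _ _

theorem Pk_none (h : ∀ e, ¬ Cand K f A U e) (X : Finset E) : Pk K f X A U = ∅ :=
  filter_eq_empty_iff.2 fun e _ => by rw [wt_none h]; exact lt_irrefl _

theorem notMem_Pk : g ∉ Pk K f X A (U.erase g) := fun h => notMem_erase _ _ (Pk_subset h)

theorem wt_self (h : Best K f A U g) (X : Finset E) : wt K f X A U g = mg f A g := by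
  rw [wt_best h, if_pos rfl]

theorem wt_in (h : Best K f A U g) (hX : g ∈ X) (he : e ≠ g) :
    wt K f X A U e = wt K f (X.erase g) (insert g A) (U.erase g) e := by
  rw [wt_best h, if_neg he, if_pos hX]
  exact wt_congr (fun _ _ => rfl) (fun b hb => by simp [ne_of_mem_erase hb]) e

theorem wt_not (h : Best K f A U g) (hX : g ∉ X) (he : e ≠ g) :
    wt K f X A U e = wt K f X A (U.erase g) e := by
  rw [wt_best h, if_neg he, if_neg hX]

theorem Pk_in (h : Best K f A U g) (hX : g ∈ X) :
    Pk K f X A U = insert g (Pk K f (X.erase g) (insert g A) (U.erase g)) := by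
  ext e
  by_cases he : e = g
  · simp [Pk, he, h.1.1, wt_self h, h.1.2.2]
  · simp [Pk, he, wt_in h hX he]

theorem Pk_not (h : Best K f A U g) (hX : g ∉ X) :
    Pk K f X A U = insert g (Pk K f X A (U.erase g)) := by
  ext e
  by_cases he : e = g
  · simp [Pk, he, h.1.1, wt_self h, h.1.2.2]
  · simp [Pk, he, wt_not h hX he]

theorem sum_in (h : Best K f A U g) (hX : g ∈ X) {S : Finset E} (hS : g ∉ S) :
    ∑ e ∈ S, wt K f X A U e = ∑ e ∈ S, wt K f (X.erase g) (insert g A) (U.erase g) e :=
  sum_congr rfl fun _ he => wt_in h hX (ne_of_mem_of_not_mem he hS)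

theorem sum_not (h : Best K f A U g) (hX : g ∉ X) {S : Finset E} (hS : g ∉ S) :
    ∑ e ∈ S, wt K f X A U e = ∑ e ∈ S, wt K f X A (U.erase g) e :=
  sum_congr rfl fun _ he => wt_not h hX (ne_of_mem_of_not_mem he hS)

end Vale.Agent.N331X
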